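import Vale.Agent.Results.P279.A_main
import Vale.Agent.Results.P279.B_uniform
import Vale.Agent.Results.P279.C_lowdeg

namespace Vale.Agent.Results.P279.AAA_union

open Vale.Agent.Lib.P279

/-- Three complementary statements on curves through very general points of the plane, in one:
Nagata's strict inequality for equal multiplicities `m` with `100 m ≤ r`; the uniform bound
`(r^2 - 100) (∑ m i)^2 ≤ r^3 d^2` for all multiplicity vectors; Nagata's strict inequality for all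
multiplicity vectors when `200 d ≤ r^(3/2)` or `200 ∑ m i ≤ r^2`. -/
theorem result :
    (∀ (r : ℕ), ¬ IsSquare r → HoldsVeryGenerally r (fun v =>
      ∀ (d m : ℕ) (F : MvPolynomial (Fin 3) ℂ), 1 ≤ m → 100 * m ≤ r → F ≠ 0 →
        F.IsHomogeneous d → (∀ i, HasMultAtLeast F (v i) m) →
          (∑ _i : Fin r, (m : ℝ)) < d * Real.sqrt r)) ∧
    (∀ (r : ℕ), HoldsVeryGenerally r (fun v =>
      ∀ (d : ℕ) (F : MvPolynomial (Fin 3) ℂ) (m : Fin r → ℕ), F ≠ 0 → F.IsHomogeneous d →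
        (∀ i, HasMultAtLeast F (v i) (m i)) →
          ((r : ℝ) ^ 2 - 100) * (∑ i, (m i : ℝ)) ^ 2 ≤ (r : ℝ) ^ 3 * (d : ℝ) ^ 2)) ∧
    (∀ (r : ℕ), ¬ IsSquare r → HoldsVeryGenerally r (fun v =>
      ∀ (d : ℕ) (F : MvPolynomial (Fin 3) ℂ) (m : Fin r → ℕ), 1 ≤ d → F ≠ 0 → F.IsHomogeneous d →
        (∀ i, HasMultAtLeast F (v i) (m i)) →
        (200 ^ 2 * (d : ℝ) ^ 2 ≤ (r : ℝ) ^ 3 ∨ 200 * (∑ i, (m i : ℝ)) ≤ (r : ℝ) ^ 2) →
          (∑ i, (m i : ℝ)) < (d : ℝ) * Real.sqrt (r : ℝ))) :=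
  ⟨A_main.result, B_uniform.result, C_lowdeg.result⟩

end Vale.Agent.Results.P279.AAA_union
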